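import Vale.Agent.P281.H191.HKT.Ex
import Vale.Agent.P281.H83.HKT.Defs
import Vale.Agent.P281.H406.HK.Forms
import Vale.Agent.P281.H747.HK.Pos

/-!
# P281, project T-HKT (helper118): the forms `θ_j` are closed; the integrals `bT`, `tT`
-/

open Set Filter Metric MeasureTheory Vale.Agent.P272.K
open scoped Topology ContDiff ComplexConjugate ComplexOrder

noncomputable section

namespace Vale.Agent.P281.H118.HKT

open Vale.Agent.P281.H64.TK Vale.Agent.P281.H64.TK.TS Vale.Agent.P281.H83.HK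
open Vale.Agent.P281.H83.HKT
open Vale.Agent.P281.H191.HKT (w2 w2_apply Cl1 Real1 ww cl2_ww)
open Vale.Agent.P281.H702.TS (sm2 Tr_eq Tr_fderiv hol_smooth)
open Vale.Agent.P281.H406.HK (fderiv_hol)
open Vale.Agent.P281.H747.TS (cj1 cj1_apply sm_comp fd_comp l2_ext)

variable {a d : ℕ}

/-! ### Pointwise -/

/-- The 1-form `∑ c_k dz_k`. -/
def r1 (c : Fin d → ℂ) : L1 d :=
  LinearMap.toContinuousLinearMap
    { toFun := fun v : Cm d => ∑ k, c k * v k
      map_add' := by
        intro u v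
        simp only [Pi.add_apply, mul_add, Finset.sum_add_distrib]
      map_smul' := by
        intro r u
        simp only [Pi.smul_apply, Complex.real_smul, RingHom.id_apply, Finset.mul_sum]
        exact Finset.sum_congr rfl fun k _ => by ring }

theorem r1_apply (c : Fin d → ℂ) (v : Cm d) : r1 c v = ∑ k, c k * v k := rfl

/-- `θ_j = (i/2) u_j ∧ conj u_j` -/
theorem thj_eq (u : Matrix (Fin a) (Fin d) ℂ) (j : Fin a) :
    thj u j = (Complex.I / 2) • w2 (r1 (u j)) (cj1 d (r1 (u j))) := by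
  refine l2_ext fun x y => ?_
  show _ = Complex.I / 2 * (r1 (u j) x * conj (r1 (u j) y) - r1 (u j) y * conj (r1 (u j) x))
  rw [r1_apply, r1_apply]
  show Complex.I / 2 * ∑ k, ∑ l, (u j k * conj (u j l)) * (x k * conj (y l) - y k * conj (x l)) = _
  congr 1
  simp only [map_sum, map_mul, Finset.sum_mul_sum, mul_sub, Finset.sum_sub_distrib]
  congr 1
  · refine Finset.sum_congr rfl fun k _ => Finset.sum_congr rfl fun l _ => ?_
    ring
  · refine Finset.sum_congr rfl fun k _ => Finset.sum_congr rfl fun l _ => ?_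
    ring

section
variable {E Γ : Type} [TopologicalSpace E] [Group Γ] [MulAction Γ E] {S : Sheets d E Γ}

/-! ### The 1-forms -/

theorem r1_smooth {u : Fin S.N → Cm d → Matrix (Fin a) (Fin d) ℂ} (hu : Hol1 S u) (j : Fin a)
    (i : Fin S.N) {z : Cm d} (hz : z ∈ ball (0 : Cm d) 3) :
    ContDiffAt ℝ ∞ (fun z => r1 (u i z j)) z := by
  have h1 : ContDiffOn ℝ ∞ (fun z => r1 (u i z j)) (ball 0 3) := by
    rw [contDiffOn_clm_apply]
    intro v
    simp only [r1_apply]
    exact ContDiffOn.sum fun k _ => (hol_smooth (hu.hol i j k)).mul contDiffOn_const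
  exact h1.contDiffAt (isOpen_ball.mem_nhds hz)

theorem r1_fderiv {u : Fin S.N → Cm d → Matrix (Fin a) (Fin d) ℂ} (hu : Hol1 S u) (j : Fin a)
    (i : Fin S.N) {z : Cm d} (hz : z ∈ ball (0 : Cm d) 3) (x v : Cm d) :
    fderiv ℝ (fun z => r1 (u i z j)) z x v =
      ∑ k, ∑ l, dd l (fun z => u i z j k) z * (x l * v k) := by
  have h1 : DifferentiableAt ℝ (fun z => r1 (u i z j)) z :=
    (r1_smooth hu j i hz).differentiableAt (by simp)
  have h2 : HasFDerivAt (fun z => r1 (u i z j) v)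
      ((fderiv ℝ (fun z => r1 (u i z j)) z).flip v) z := H191.HKT.fd1 h1 v
  have h3 : HasFDerivAt (fun z => r1 (u i z j) v)
      (∑ k, (v k) • fderiv ℝ (fun z => u i z j k) z) z := by
    have h4 : (fun z => r1 (u i z j) v) = fun z => ∑ k, u i z j k * v k := rfl
    rw [h4]
    refine HasFDerivAt.fun_sum fun k _ => ?_
    exact (((hu.hol i j k).differentiableAt (isOpen_ball.mem_nhds hz)).hasFDerivAt.restrictScalars
      ℝ).differentiableAt.hasFDerivAt.mul_const _
  have h5 := h2.unique h3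
  have h6 : fderiv ℝ (fun z => r1 (u i z j)) z x v =
      ((fderiv ℝ (fun z => r1 (u i z j)) z).flip v) x := rfl
  rw [h6, h5]
  simp only [sum_apply, smul_apply, smul_eq_mul]
  refine Finset.sum_congr rfl fun k _ => ?_
  rw [fderiv_hol ((hu.hol i j k).differentiableAt (isOpen_ball.mem_nhds hz)), Finset.mul_sum]
  exact Finset.sum_congr rfl fun l _ => by ring

theorem cl1_r1 {u : Fin S.N → Cm d → Matrix (Fin a) (Fin d) ℂ} (hu : Hol1 S u) (j : Fin a) :
    Cl1 S (fun i z => r1 (u i z j)) := by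
  refine ⟨⟨fun i z hz _ => r1_smooth hu j i hz, ?_⟩, ?_⟩
  · intro i i' z hz z' hz' _ ψ hψ v
    obtain ⟨h0, h1, h2, h3, -⟩ := Tr_eq S hz hz' hψ
    have h4 := hu.change i i' z hz z' hz' _ h2 h1 h3
    rw [r1_apply, r1_apply, h4]
    simp only [Tr_fderiv S hz hz' hψ v, Matrix.mul_apply, Finset.sum_mul, Finset.mul_sum]
    rw [Finset.sum_comm]
    exact Finset.sum_congr rfl fun k _ => Finset.sum_congr rfl fun l _ => by ring
  · intro i z hz x v
    show fderiv ℝ (fun z => r1 (u i z j)) z x v = fderiv ℝ (fun z => r1 (u i z j)) z v x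
    rw [r1_fderiv hu j i hz, r1_fderiv hu j i hz, Finset.sum_comm]
    refine Finset.sum_congr rfl fun k _ => Finset.sum_congr rfl fun l _ => ?_
    rw [hu.closed i z hz j l k]
    ring

theorem cl1_conj {β : Fin S.N → Cm d → L1 d} (h : Cl1 S β) : Cl1 S (fun i z => cj1 d (β i z)) := by
  refine ⟨⟨fun i z hz hv => sm_comp (F := L1 d) (G := L1 d) (cj1 d) (h.smooth i z hz hv), ?_⟩, ?_⟩
  · intro i j z hz z' hz' hv ψ hψ v
    simp only [cj1_apply, h.change i j z hz z' hz' hv ψ hψ v]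
  · intro i z hz x v
    have d1 : DifferentiableAt ℝ (β i) z :=
      (h.smooth i z hz (mem_univ _)).differentiableAt (by simp)
    have e : fderiv ℝ (fun z => cj1 d (β i z)) z = (cj1 d).comp (fderiv ℝ (β i) z) :=
      fd_comp (F := L1 d) (G := L1 d) (cj1 d) d1
    rw [e]
    show conj (fderiv ℝ (β i) z x v) = conj (fderiv ℝ (β i) z v x)
    rw [h.closed i z hz x v]

/-! ### The 2-forms `θ_j` -/

/-- **`θ_j` is a closed 2-form.** -/
theorem thj_cl2 {u : Fin S.N → Cm d → Matrix (Fin a) (Fin d) ℂ} (hu : Hol1 S u) (j : Fin a) :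
    Cl2 S (fun i z => thj (u i z) j) :=
  H747.TS.cl2_congr (H747.TS.cl2_smul (cl2_ww (cl1_r1 hu j) (cl1_conj (cl1_r1 hu j)))
    (Complex.I / 2)) fun i z _ => (thj_eq (u i z) j).symm

theorem thj_im (u : Matrix (Fin a) (Fin d) ℂ) (j : Fin a) (x y : Cm d) :
    (thj u j x y).im = 0 := by
  rw [thj_eq]
  show (Complex.I / 2 * (r1 (u j) x * conj (r1 (u j) y) - r1 (u j) y * conj (r1 (u j) x))).im = 0
  simp only [Complex.mul_im, Complex.sub_im, Complex.sub_re, Complex.mul_re, Complex.conj_re,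
    Complex.conj_im, Complex.div_ofNat_re, Complex.div_ofNat_im, Complex.I_re, Complex.I_im]
  ring

theorem thj_real2 (u : Fin S.N → Cm d → Matrix (Fin a) (Fin d) ℂ) (j : Fin a) :
    Real2 S (fun i z => thj (u i z) j) := fun i z _ x y => thj_im (u i z) j x y

/-! ### The lists of factors -/

/-- The list `lst` as a family of forms. -/
def lstF {N : ℕ} (u : Fin N → Cm d → Matrix (Fin a) (Fin d) ℂ) (x y c : Fin N → Cm d → L2 d)
    (l : Fin d) (i : Fin N) (z : Cm d) : L2 d := lst (u i z) (x i z) (y i z) (c i z) l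

theorem lst_cl2 {u : Fin S.N → Cm d → Matrix (Fin a) (Fin d) ℂ} (hu : Hol1 S u)
    {x y c : Fin S.N → Cm d → L2 d} (hx : Cl2 S x) (hy : Cl2 S y) (hc : Cl2 S c) (l : Fin d) :
    Cl2 S (lstF u x y c l) := by
  unfold lstF lst
  by_cases h0 : l.val = 0
  · simp only [h0, if_true]
    exact hx
  by_cases h1 : l.val = 1
  · simp only [h1, if_true, one_ne_zero, if_false]
    exact hy
  by_cases h2 : l.val - 2 < a
  · simp only [if_neg h0, if_neg h1, dif_pos h2]
    exact thj_cl2 hu _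
  · simp only [if_neg h0, if_neg h1, dif_neg h2]
    exact hc

/-- The list `thl` as a family of forms. -/
def thlF {N : ℕ} (u : Fin N → Cm d → Matrix (Fin a) (Fin d) ℂ) (x : Fin d → Fin N → Cm d → L2 d)
    (l : Fin d) (i : Fin N) (z : Cm d) : L2 d := thl (u i z) (fun l => x l i z) l

theorem thl_cl2 {u : Fin S.N → Cm d → Matrix (Fin a) (Fin d) ℂ} (hu : Hol1 S u)
    {x : Fin d → Fin S.N → Cm d → L2 d} (hx : ∀ l, Cl2 S (x l)) (l : Fin d) :
    Cl2 S (thlF u x l) := by
  unfold thlF thl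
  by_cases h0 : l.val < a
  · simp only [dif_pos h0]
    exact thj_cl2 hu _
  · simp only [dif_neg h0]
    exact hx l

/-- `bT` in the letters of `H864.HK`. -/
theorem bT_eq (u : Fin S.N → Cm d → Matrix (Fin a) (Fin d) ℂ) (x y c : Fin S.N → Cm d → L2 d) :
    bT S u x y c = H864.HK.Wint S (lstF u x y c) := by
  unfold bT W4 H864.HK.Wint
  congr 1
  funext i z
  rw [H864.HK.W_eq]
  rfl

/-- `tT` in the letters of `H864.HK`. -/
theorem tT_eq (u : Fin S.N → Cm d → Matrix (Fin a) (Fin d) ℂ) (x : Fin d → Fin S.N → Cm d → L2 d) :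
    tT S u x = H864.HK.Wint S (thlF u x) := by
  unfold tT H864.HK.Wint
  congr 1
  funext i z
  rw [H864.HK.W_eq]
  rfl

theorem W4_eq (u : Matrix (Fin a) (Fin d) ℂ) (x y c : L2 d) :
    W4 u x y c = H864.HK.W (lst u x y c) := H864.HK.W_eq _

/-! ### Algebra of `W4` -/

theorem lst_upd0 (u : Matrix (Fin a) (Fin d) ℂ) (x y c : L2 d) (h : 0 < d) :
    lst u x y c = Function.update (lst u 0 y c) ⟨0, h⟩ x := by
  funext i
  by_cases h0 : i = ⟨0, h⟩
  · subst h0
    rw [Function.update_self]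
    simp [lst]
  · rw [Function.update_of_ne h0]
    have e0 : i.val ≠ 0 := fun e => h0 (Fin.ext e)
    simp [lst, e0]

theorem lst_swap (u : Matrix (Fin a) (Fin d) ℂ) (x y c : L2 d) (h : 1 < d) :
    (fun i => lst u x y c (Equiv.swap ⟨0, by omega⟩ ⟨1, h⟩ i)) = lst u y x c := by
  funext i
  by_cases h0 : i = ⟨0, by omega⟩
  · subst h0
    rw [Equiv.swap_apply_left]
    simp [lst]
  · by_cases h1 : i = ⟨1, h⟩
    · subst h1
      rw [Equiv.swap_apply_right]
      simp [lst]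
    · rw [Equiv.swap_apply_of_ne_of_ne h0 h1]
      have e0 : i.val ≠ 0 := fun e => h0 (Fin.ext e)
      have e1 : i.val ≠ 1 := fun e => h1 (Fin.ext e)
      simp [lst, e0, e1]

/-- `W4` is symmetric in the first two factors. -/
theorem W4_comm (h : 1 < d) (u : Matrix (Fin a) (Fin d) ℂ) (x y c : L2 d) :
    W4 u x y c = W4 u y x c := by
  rw [W4_eq, W4_eq, ← lst_swap u x y c h, H864.HK.W_perm]

theorem W4_add_left (h : 0 < d) (u : Matrix (Fin a) (Fin d) ℂ) (x x' y c : L2 d) :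
    W4 u (x + x') y c = W4 u x y c + W4 u x' y c := by
  rw [W4_eq, W4_eq, W4_eq, lst_upd0 u (x + x') y c h, lst_upd0 u x y c h, lst_upd0 u x' y c h,
    H864.HK.W_add]

theorem W4_sub_left (h : 0 < d) (u : Matrix (Fin a) (Fin d) ℂ) (x x' y c : L2 d) :
    W4 u (x - x') y c = W4 u x y c - W4 u x' y c := by
  rw [W4_eq, W4_eq, W4_eq, lst_upd0 u (x - x') y c h, lst_upd0 u x y c h, lst_upd0 u x' y c h,
    H864.HK.W_sub]

theorem W4_smul_left (h : 0 < d) (u : Matrix (Fin a) (Fin d) ℂ) (r : ℂ) (x y c : L2 d) :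
    W4 u (r • x) y c = r * W4 u x y c := by
  rw [W4_eq, W4_eq, lst_upd0 u (r • x) y c h, lst_upd0 u x y c h, H864.HK.W_smul]

theorem W4_add_right (h : 1 < d) (u : Matrix (Fin a) (Fin d) ℂ) (x y y' c : L2 d) :
    W4 u x (y + y') c = W4 u x y c + W4 u x y' c := by
  rw [W4_comm h, W4_add_left (by omega), W4_comm h u y, W4_comm h u y']

theorem W4_sub_right (h : 1 < d) (u : Matrix (Fin a) (Fin d) ℂ) (x y y' c : L2 d) :
    W4 u x (y - y') c = W4 u x y c - W4 u x y' c := by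
  rw [W4_comm h, W4_sub_left (by omega), W4_comm h u y, W4_comm h u y']

theorem W4_smul_right (h : 1 < d) (u : Matrix (Fin a) (Fin d) ℂ) (r : ℂ) (x y c : L2 d) :
    W4 u x (r • y) c = r * W4 u x y c := by
  rw [W4_comm h, W4_smul_left (by omega), W4_comm h u y]

/-- Complex conjugation. -/
theorem W4_conj (u : Matrix (Fin a) (Fin d) ℂ) {x y c x' y' c' : L2 d}
    (hx : ∀ p q, x' p q = conj (x p q)) (hy : ∀ p q, y' p q = conj (y p q))
    (hc : ∀ p q, c' p q = conj (c p q)) : W4 u x' y' c' = conj (W4 u x y c) := by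
  rw [W4_eq, W4_eq]
  refine H864.HK.W_conj fun i p q => ?_
  unfold lst
  split_ifs
  · exact hx p q
  · exact hy p q
  · exact (Complex.conj_eq_iff_im.2 (thj_im u _ p q)).symm
  · exact hc p q

/-! ### Algebra of `bT` -/

theorem int_mul (r : ℂ) (D : Fin S.N → Cm d → ℂ) :
    S.int (fun i z => r * D i z) = r * S.int D := by
  unfold Sheets.int
  rw [Finset.mul_sum]
  exact Finset.sum_congr rfl fun i _ => integral_const_mul _ _

variable [ContinuousConstSMul Γ E]

theorem bT_congr {u : Fin S.N → Cm d → Matrix (Fin a) (Fin d) ℂ}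
    {x y c x' y' c' : Fin S.N → Cm d → L2 d} (hx : ∀ i, ∀ z ∈ ball (0 : Cm d) 3, x i z = x' i z)
    (hy : ∀ i, ∀ z ∈ ball (0 : Cm d) 3, y i z = y' i z)
    (hc : ∀ i, ∀ z ∈ ball (0 : Cm d) 3, c i z = c' i z) : bT S u x y c = bT S u x' y' c' := by
  unfold bT
  exact H864.HK.int_congr S fun i z hz => by rw [hx i z hz, hy i z hz, hc i z hz]

theorem bT_comm (h : 1 < d) (u : Fin S.N → Cm d → Matrix (Fin a) (Fin d) ℂ)
    (x y c : Fin S.N → Cm d → L2 d) : bT S u x y c = bT S u y x c := by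
  unfold bT
  exact H864.HK.int_congr S fun i z _ => W4_comm h _ _ _ _

theorem int_add {D D' : Fin S.N → Cm d → ℂ} (h : ∀ i, ContinuousOn (D i) (ball 0 3))
    (h' : ∀ i, ContinuousOn (D' i) (ball 0 3)) :
    S.int (fun i z => D i z + D' i z) = S.int D + S.int D' := by
  unfold Sheets.int
  rw [← Finset.sum_add_distrib]
  refine Finset.sum_congr rfl fun i _ => ?_
  exact integral_add (H303.K.integrableOn_P S i (h i)) (H303.K.integrableOn_P S i (h' i))

/-- For real `c`: the conjugate of `bT`. -/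
theorem bT_conj (u : Fin S.N → Cm d → Matrix (Fin a) (Fin d) ℂ) {x y c : Fin S.N → Cm d → L2 d}
    (hc : Real2 S c) : bT S u (cjs x) (cjs y) c = conj (bT S u x y c) := by
  have h1 : bT S u (cjs x) (cjs y) c =
      S.int fun i z => conj (W4 (u i z) (x i z) (y i z) (c i z)) := by
    unfold bT
    refine H864.HK.int_congr S fun i z hz => W4_conj _ (fun p q => rfl) (fun p q => rfl)
      fun p q => ?_
    exact (Complex.conj_eq_iff_im.2 (hc i z hz p q)).symm
  rw [h1]
  unfold bT Sheets.int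
  rw [map_sum]
  exact Finset.sum_congr rfl fun i _ => integral_conj

variable [Subsingleton Γ]

theorem W4_cont {u : Fin S.N → Cm d → Matrix (Fin a) (Fin d) ℂ} (hu : Hol1 S u)
    {x y c : Fin S.N → Cm d → L2 d} (hx : Cl2 S x) (hy : Cl2 S y) (hc : Cl2 S c) (i : Fin S.N) :
    ContinuousOn (fun z => W4 (u i z) (x i z) (y i z) (c i z)) (ball 0 3) := by
  have h1 := H864.HK.wint_cont (fun l => lst_cl2 hu hx hy hc l) i
  refine h1.congr fun z _ => ?_
  show W4 _ _ _ _ = _
  rw [W4_eq]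
  rfl

theorem bT_add_left (hd : 0 < d) {u : Fin S.N → Cm d → Matrix (Fin a) (Fin d) ℂ} (hu : Hol1 S u)
    {x x' y c : Fin S.N → Cm d → L2 d} (hx : Cl2 S x) (hx' : Cl2 S x') (hy : Cl2 S y)
    (hc : Cl2 S c) : bT S u (fun i z => x i z + x' i z) y c = bT S u x y c + bT S u x' y c := by
  unfold bT
  rw [← int_add (fun i => W4_cont hu hx hy hc i) (fun i => W4_cont hu hx' hy hc i)]
  exact H864.HK.int_congr S fun i z _ => W4_add_left hd _ _ _ _ _

omit [Subsingleton Γ] in
theorem bT_smul_left (hd : 0 < d) (u : Fin S.N → Cm d → Matrix (Fin a) (Fin d) ℂ) (r : ℂ)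
    (x y c : Fin S.N → Cm d → L2 d) :
    bT S u (fun i z => r • x i z) y c = r * bT S u x y c := by
  unfold bT
  rw [← int_mul]
  exact H864.HK.int_congr S fun i z _ => W4_smul_left hd _ _ _ _ _

theorem bT_add_right (hd : 1 < d) {u : Fin S.N → Cm d → Matrix (Fin a) (Fin d) ℂ} (hu : Hol1 S u)
    {x y y' c : Fin S.N → Cm d → L2 d} (hx : Cl2 S x) (hy : Cl2 S y) (hy' : Cl2 S y')
    (hc : Cl2 S c) : bT S u x (fun i z => y i z + y' i z) c = bT S u x y c + bT S u x y' c := by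
  rw [bT_comm hd, bT_add_left (by omega) hu hy hy' hx hc, bT_comm hd u y, bT_comm hd u y']

omit [Subsingleton Γ] in
theorem bT_smul_right (hd : 1 < d) (u : Fin S.N → Cm d → Matrix (Fin a) (Fin d) ℂ) (r : ℂ)
    (x y c : Fin S.N → Cm d → L2 d) :
    bT S u x (fun i z => r • y i z) c = r * bT S u x y c := by
  rw [bT_comm hd, bT_smul_left (by omega), bT_comm hd u y]

/-- An exact factor. -/
theorem bT_exact_left (hd : 0 < d) {u : Fin S.N → Cm d → Matrix (Fin a) (Fin d) ℂ} (hu : Hol1 S u)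
    {x y c : Fin S.N → Cm d → L2 d} (hx : Cl2 S x) (he : Exact S x) (hy : Cl2 S y)
    (hc : Cl2 S c) : bT S u x y c = 0 := by
  rw [bT_eq]
  refine H864.HK.wint_exact ⟨0, hd⟩ (fun k _ => lst_cl2 hu hx hy hc k) ?_
  have : lstF u x y c ⟨0, hd⟩ = x := by
    funext i z
    simp [lstF, lst]
  rw [this]
  exact he

/-- `bT` depends on the classes of the first two factors and of `c` only. -/
theorem bT_class {u : Fin S.N → Cm d → Matrix (Fin a) (Fin d) ℂ} (hu : Hol1 S u)
    {x y c x' y' c' : Fin S.N → Cm d → L2 d} (hx : Cl2 S x) (hy : Cl2 S y) (hc : Cl2 S c)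
    (hx' : Cl2 S x') (hy' : Cl2 S y') (hc' : Cl2 S c')
    (ex : Exact S (fun i z => x i z - x' i z)) (ey : Exact S (fun i z => y i z - y' i z))
    (ec : Exact S (fun i z => c i z - c' i z)) : bT S u x y c = bT S u x' y' c' := by
  rw [bT_eq, bT_eq]
  refine H864.HK.wint_class (fun l => lst_cl2 hu hx hy hc l) (fun l => lst_cl2 hu hx' hy' hc' l)
    fun l => ?_
  unfold lstF lst
  by_cases h0 : l.val = 0
  · simp only [h0, if_true]
    exact ex
  by_cases h1 : l.val = 1
  · simp only [h1, if_true, one_ne_zero, if_false]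
    exact ey
  by_cases h2 : l.val - 2 < a
  · simp only [if_neg h0, if_neg h1, dif_pos h2]
    refine H747.TS.exact_congr (α := fun _ _ => (0 : L2 d)) (S := S) H747.TS.exact_zero
      fun i z _ => ?_
    exact (sub_self (G := L2 d) _).symm
  · simp only [if_neg h0, if_neg h1, dif_neg h2]
    exact ec

/-! ### Positivity -/

/-- **Positivity of the integral of a top product with values `≥ 0`, `> 0` somewhere.** -/
theorem wint_pos {α : Fin d → Fin S.N → Cm d → L2 d} (h : ∀ l, Cl2 S (α l))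
    (h0 : ∀ i, ∀ z ∈ ball (0 : Cm d) 3, ∃ r : ℝ, 0 ≤ r ∧ (H864.HK.W fun l => α l i z) = (r : ℂ))
    (hne : ∃ i, ∃ z ∈ ball (0 : Cm d) 3, (H864.HK.W fun l => α l i z) ≠ 0) :
    0 < (H864.HK.Wint S α).re := by
  have hr : ∀ i, ∀ z ∈ ball (0 : Cm d) 3, (H864.HK.W fun l => α l i z) =
      (((H864.HK.W fun l => α l i z).re : ℝ) : ℂ) := by
    intro i z hz
    obtain ⟨r, -, h⟩ := h0 i z hz
    rw [h, Complex.ofReal_re]
  have e1 : H864.HK.Wint S α =
      S.int fun i z => (((H864.HK.W fun l => α l i z).re : ℝ) : ℂ) := by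
    unfold H864.HK.Wint
    exact H864.HK.int_congr S hr
  rw [e1]
  refine H747.TS.int_pos S _ (fun i => Complex.continuous_re.comp_continuousOn
    (H864.HK.wint_cont h i)) (fun i z hz => ?_) (fun i j z hz z' hz' he h1 h2 => ?_) ?_
  · obtain ⟨r, h1, h2⟩ := h0 i z hz
    rw [h2, Complex.ofReal_re]
    exact h1
  · apply h1
    have h3 := (H702.TS.tr_spec S hz hz' he)
    have h4 := H702.TS.tr_eq S hz' he
    have h5 : Tr S S id i j z z' (H702.TS.tr S i j) := by
      refine ⟨h3.1.contDiffAt.restrict_scalars ℝ, h4, h3.2.mono fun u hu => hu.2⟩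
    have h6 : (H864.HK.W fun l => α l i z) = (H864.HK.W fun l => α l j z') *
        ((fderiv ℝ (H702.TS.tr S i j) z).det : ℂ) :=
      H864.HK.W_pull _ fun l p q => (h l).change i j z hz z' hz' (mem_univ _) _ h5 p q
    rw [h6, hr j z' hz', h2]
    simp
  · obtain ⟨i, z, hz, h1⟩ := hne
    refine ⟨i, z, hz, fun h2 => h1 ?_⟩
    rw [hr i z hz, h2]
    simp

/-- **Positivity of `bT`.** -/
theorem bT_pos {u : Fin S.N → Cm d → Matrix (Fin a) (Fin d) ℂ} (hu : Hol1 S u)
    {x y c : Fin S.N → Cm d → L2 d} (hx : Cl2 S x) (hy : Cl2 S y) (hc : Cl2 S c)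
    (h0 : ∀ i, ∀ z ∈ ball (0 : Cm d) 3, ∃ r : ℝ, 0 ≤ r ∧
      W4 (u i z) (x i z) (y i z) (c i z) = (r : ℂ))
    (hne : ∃ i, ∃ z ∈ ball (0 : Cm d) 3, W4 (u i z) (x i z) (y i z) (c i z) ≠ 0) :
    0 < (bT S u x y c).re := by
  rw [bT_eq]
  refine wint_pos (fun l => lst_cl2 hu hx hy hc l) (fun i z hz => ?_) ?_
  · obtain ⟨r, h1, h2⟩ := h0 i z hz
    refine ⟨r, h1, ?_⟩
    rw [W4_eq] at h2
    exact h2
  · obtain ⟨i, z, hz, h1⟩ := hne
    refine ⟨i, z, hz, ?_⟩
    rw [W4_eq] at h1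
    exact h1

/-- **Positivity of `tT`.** -/
theorem tT_pos {u : Fin S.N → Cm d → Matrix (Fin a) (Fin d) ℂ} (hu : Hol1 S u)
    {x : Fin d → Fin S.N → Cm d → L2 d} (hx : ∀ l, Cl2 S (x l))
    (h0 : ∀ i, ∀ z ∈ ball (0 : Cm d) 3, ∃ r : ℝ, 0 ≤ r ∧
      W (thl (u i z) fun l => x l i z) = (r : ℂ))
    (hne : ∃ i, ∃ z ∈ ball (0 : Cm d) 3, W (thl (u i z) fun l => x l i z) ≠ 0) :
    0 < (tT S u x).re := by
  rw [tT_eq]
  refine wint_pos (fun l => thl_cl2 hu hx l) (fun i z hz => ?_) ?_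
  · obtain ⟨r, h1, h2⟩ := h0 i z hz
    refine ⟨r, h1, ?_⟩
    rw [H864.HK.W_eq] at h2
    exact h2
  · obtain ⟨i, z, hz, h1⟩ := hne
    refine ⟨i, z, hz, ?_⟩
    rw [H864.HK.W_eq] at h1
    exact h1

end

end Vale.Agent.P281.H118.HKT
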