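import Vale.Agent.P281.H83.HKT.Spec
import Vale.Agent.P281.H118.HKT.Thj
import Vale.Agent.P281.H22.HKT.Alg

/-!
# P281, project T-HKT (helper118): block FORMS
-/

open Set Filter Metric MeasureTheory Vale.Agent.P272.K
open scoped Topology ContDiff ComplexConjugate ComplexOrder

noncomputable section

namespace Vale.Agent.P281.H118.HKT

open Vale.Agent.P281.H64.TK Vale.Agent.P281.H64.TK.TS Vale.Agent.P281.H83.HK
open Vale.Agent.P281.H83.HKT

/-- **FORMS**: the `θ_j` are closed real 2-forms, the `uᵀ m u` are closed holomorphic 2-forms. -/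
theorem formsTStmt : FormsTStmt := by
  intro a d E Γ _ _ _ _ _ _ S u _ hu
  exact ⟨fun j => ⟨thj_cl2 hu j, thj_real2 u j⟩, fun m hm => H22.HKT.hol2_uu hu hm⟩

end Vale.Agent.P281.H118.HKT
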