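import Vale.Agent.P281.H150.Gen.Img
import Vale.Agent.P281.H713.SA.G1
import Vale.Agent.P281.H83.HKT.Spec

/-!
# P281, T-HKT (helper118): the critical values of the Albanese functions
-/

open Set Filter Metric MeasureTheory Vale.Agent.P272.K
open scoped Topology ContDiff ComplexConjugate ComplexOrder Pointwise

noncomputable section

namespace Vale.Agent.P281.H118.HKT

open Vale.Agent.P281.H64.TK Vale.Agent.P281.H64.TK.TS Vale.Agent.P281.H83.HK
open Vale.Agent.P281.H83.HKT
open Vale.Agent.P281.H64.Gen (IsSmallSet)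
open Vale.Agent.P281.H150.Gen (AnIn NoSub SThin)
open Vale.Agent.P281.H713.SA (mK surj_iff_minor)

section lin
variable {a d : ℕ}

/-- Rows of the matrix of a surjective map. -/
theorem rows_of_surj {M : Matrix (Fin a) (Fin d) ℂ} (h : Function.Surjective M.mulVec) :
    LinearIndependent ℂ M.row := by
  have key : Function.Injective M.vecMulLinear := by
    rw [injective_iff_map_eq_zero (Matrix.vecMulLinear M)]
    intro c hc
    have hc' : Matrix.vecMul c M = 0 := hc
    funext j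
    obtain ⟨v, hv⟩ := h (Pi.single j 1)
    have h1 : c ⬝ᵥ M.mulVec v = 0 := by
      rw [Matrix.dotProduct_mulVec, hc', zero_dotProduct]
    rw [hv, dotProduct_single, mul_one] at h1
    exact h1
  exact Matrix.vecMul_injective_iff.1 key

theorem surj_of_rows {M : Matrix (Fin a) (Fin d) ℂ} (h : LinearIndependent ℂ M.row) :
    Function.Surjective M.mulVec := by
  have h1 := h.rank_matrix
  rw [Fintype.card_fin] at h1
  have h2 : LinearMap.range M.mulVecLin = ⊤ := by
    apply Submodule.eq_top_of_finrank_eq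
    rw [Module.finrank_fin_fun]
    exact h1
  exact LinearMap.range_eq_top.1 h2

end lin

section
variable {a d : ℕ} {E K : Type} [TopologicalSpace E] [Group K] [MulAction K E]
  {S : Sheets d E K} {F : E → Fin a → ℂ} {c : K → Fin a → ℂ}

theorem diffAt (hF : ∀ j, Add S (fun e => F e j) (fun γ => c γ j)) (i : Fin S.N) {z : Cm d}
    (hz : z ∈ ball (0 : Cm d) 3) : DifferentiableAt ℂ (fun z => F (S.σ i z)) z := by
  rw [differentiableAt_pi]
  intro j
  exact ((hF j).hol i).differentiableAt (isOpen_ball.mem_nhds hz)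

theorem anAt (hF : ∀ j, Add S (fun e => F e j) (fun γ => c γ j)) (i : Fin S.N) {z : Cm d}
    (hz : z ∈ ball (0 : Cm d) 3) : AnalyticAt ℂ (fun z => F (S.σ i z)) z := by
  refine MF.analyticAt_of_differentiableOn isOpen_ball (fun w hw => ?_) hz
  exact (diffAt hF i hw).differentiableWithinAt

theorem dF_mulVec (hF : ∀ j, Add S (fun e => F e j) (fun γ => c γ j)) (i : Fin S.N) {z : Cm d}
    (hz : z ∈ ball (0 : Cm d) 3) (v : Cm d) :
    (dF S F i z).mulVec v = fderiv ℂ (fun z => F (S.σ i z)) z v := by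
  funext j
  have h1 : HasFDerivAt (fun z => F (S.σ i z) j)
      ((ContinuousLinearMap.proj (R := ℂ) (φ := fun _ : Fin a => ℂ) j).comp
        (fderiv ℂ (fun z => F (S.σ i z)) z)) z :=
    (ContinuousLinearMap.proj (R := ℂ) (φ := fun _ : Fin a => ℂ) j).hasFDerivAt.comp z
      (diffAt hF i hz).hasFDerivAt
  have h2 : ∀ k, dF S F i z j k = fderiv ℂ (fun z => F (S.σ i z)) z (Pi.single k 1) j := by
    intro k
    show fderiv ℂ (fun z => F (S.σ i z) j) z (Pi.single k 1) = _
    rw [h1.fderiv]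
    rfl
  show ∑ k, dF S F i z j k * v k = _
  conv_rhs => rw [pi_eq_sum_univ' v]
  rw [map_sum, Finset.sum_apply]
  refine Finset.sum_congr rfl fun k _ => ?_
  rw [map_smul, Pi.smul_apply, smul_eq_mul, h2 k, mul_comm]

theorem rows_iff (hF : ∀ j, Add S (fun e => F e j) (fun γ => c γ j)) (i : Fin S.N) {z : Cm d}
    (hz : z ∈ ball (0 : Cm d) 3) : LinearIndependent ℂ (dF S F i z).row ↔
      Function.Surjective (fderiv ℂ (fun z => F (S.σ i z)) z) := by
  have h1 : (dF S F i z).mulVec = fderiv ℂ (fun z => F (S.σ i z)) z :=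
    funext fun v => dF_mulVec hF i hz v
  rw [← h1]
  exact ⟨surj_of_rows, rows_of_surj⟩

/-- The critical points in the sheet `i`. -/
def crt (S : Sheets d E K) (F : E → Fin a → ℂ) (i : Fin S.N) : Set (Cm d) :=
  {z | ¬ Function.Surjective (fderiv ℂ (fun z => F (S.σ i z)) z)}

theorem minor_an (hF : ∀ j, Add S (fun e => F e j) (fun γ => c γ j)) (i : Fin S.N)
    (L : Fin a → Fin d) {z : Cm d} (hz : z ∈ ball (0 : Cm d) 3) :
    AnalyticAt ℂ (fun z => (mK (fderiv ℂ (fun z => F (S.σ i z)) z) L).det) z := by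
  have h1 : AnalyticAt ℂ (fderiv ℂ (fun z => F (S.σ i z))) z := (anAt hF i hz).fderiv
  have h2 : ∀ j k, AnalyticAt ℂ (fun z => mK (fderiv ℂ (fun z => F (S.σ i z)) z) L j k) z := by
    intro j k
    have h3 : AnalyticAt ℂ (fun z => fderiv ℂ (fun z => F (S.σ i z)) z (Pi.single (L k) 1)) z :=
      ((ContinuousLinearMap.apply ℂ (Cm a) (Pi.single (L k) (1 : ℂ) : Cm d)).analyticAt _).comp h1
    exact ((ContinuousLinearMap.proj (R := ℂ) (φ := fun _ : Fin a => ℂ) j).analyticAt _).comp h3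
  simp only [Matrix.det_apply]
  refine Finset.analyticAt_fun_sum _ fun σ _ => ?_
  simp only [Units.smul_def, zsmul_eq_mul]
  exact analyticAt_const.mul (Finset.analyticAt_fun_prod _ fun k _ => h2 _ _)

theorem crt_iff (i : Fin S.N) (z : Cm d) : z ∈ crt S F i ↔
    ∀ L : Fin a → Fin d, (mK (fderiv ℂ (fun z => F (S.σ i z)) z) L).det = 0 := by
  show ¬ Function.Surjective (fderiv ℂ (fun z => F (S.σ i z)) z) ↔ _
  rw [surj_iff_minor]
  push Not
  rfl

theorem crt_anIn (hF : ∀ j, Add S (fun e => F e j) (fun γ => c γ j)) (i : Fin S.N) :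
    AnIn (ball (0 : Cm d) 3) (crt S F i) := by
  intro z hz
  refine ⟨ball 0 3, Fin a → Fin d, fun L z => (mK (fderiv ℂ (fun z => F (S.σ i z)) z) L).det,
    isOpen_ball, hz, fun L w hw => minor_an hF i L hw, fun w _ => crt_iff i w⟩

theorem crt_closed (hF : ∀ j, Add S (fun e => F e j) (fun γ => c γ j)) (i : Fin S.N) :
    IsCompact (crt S F i ∩ closedBall 0 1) := by
  have hsub : closedBall (0 : Cm d) 1 ⊆ ball 0 3 := closedBall_subset_ball (by norm_num)
  have h1 : crt S F i ∩ closedBall 0 1 = closedBall (0 : Cm d) 1 ∩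
      ⋂ L : Fin a → Fin d, (closedBall (0 : Cm d) 1 ∩
        (fun z => (mK (fderiv ℂ (fun z => F (S.σ i z)) z) L).det) ⁻¹' {0}) := by
    ext z
    simp only [mem_inter_iff, mem_iInter, mem_preimage, mem_singleton_iff]
    constructor
    · rintro ⟨h, hz⟩
      exact ⟨hz, fun L => ⟨hz, (crt_iff i z).1 h L⟩⟩
    · rintro ⟨hz, h⟩
      exact ⟨(crt_iff i z).2 fun L => (h L).2, hz⟩
  rw [h1]
  refine (isCompact_closedBall _ _).inter_right (isClosed_iInter fun L => ?_)
  refine ContinuousOn.preimage_isClosed_of_isClosed (fun z hz => ?_) isClosed_closedBall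
    isClosed_singleton
  exact (minor_an hF i L (hsub hz)).continuousAt.continuousWithinAt

/-- The image of the critical points of a sheet. -/
theorem crt_thin (hF : ∀ j, Add S (fun e => F e j) (fun γ => c γ j)) (i : Fin S.N)
    (t : Fin a → ℂ) :
    SThin (Cm a) ((fun z => F (S.σ i z) + t) '' (crt S F i ∩ ball 0 3)) := by
  refine H150.Gen.core a _ (Cm d) rfl (ball 0 3) (crt S F i) (fun z => F (S.σ i z) + t)
    isOpen_ball (fun z hz => (anAt hF i hz).add analyticAt_const) (crt_anIn hF i) ?_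
  intro V' _ _ _ W' φ hW' hφ x hx hs
  obtain ⟨h1, h2, h3⟩ := hφ x hx
  apply h2
  have h4 : HasFDerivAt (fun v => F (S.σ i (φ v)) + t)
      ((fderiv ℂ (fun z => F (S.σ i z)) (φ x)).comp (fderiv ℂ φ x)) x :=
    (HasFDerivAt.comp x (diffAt hF i h3).hasFDerivAt h1.differentiableAt.hasFDerivAt).add_const _
  rw [h4.fderiv] at hs
  intro y
  obtain ⟨v, hv⟩ := hs y
  exact ⟨_, hv⟩

/-- Critical points do not depend on the sheet. -/
theorem crt_change (hF : ∀ j, Add S (fun e => F e j) (fun γ => c γ j)) {i j : Fin S.N}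
    {z w : Cm d} (hz : z ∈ ball (0 : Cm d) 3) (hw : w ∈ ball (0 : Cm d) 3) {γ : K}
    (h : γ • S.σ j w = S.σ i z) (hc : z ∈ crt S F i) : w ∈ crt S F j := by
  intro hs
  apply hc
  obtain ⟨θ, h1, h2, h3⟩ := S.hol j i w hw z hz γ⁻¹ (by rw [← h, inv_smul_smul])
  have h4 : (fun u => F (S.σ j u)) =ᶠ[𝓝 w] fun u => F (S.σ i (θ u)) + c γ⁻¹ := by
    filter_upwards [h3] with u hu
    rw [hu]
    funext k
    exact (hF k).add γ⁻¹ _
  have hz' : θ w ∈ ball (0 : Cm d) 3 := by rw [h2]; exact hz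
  have h5 : HasFDerivAt (fun u => F (S.σ i (θ u)) + c γ⁻¹)
      ((fderiv ℂ (fun z => F (S.σ i z)) (θ w)).comp (fderiv ℂ θ w)) w :=
    (HasFDerivAt.comp w (diffAt hF i hz').hasFDerivAt h1.differentiableAt.hasFDerivAt).add_const _
  rw [h4.fderiv_eq, h5.fderiv, h2] at hs
  intro y
  obtain ⟨v, hv⟩ := hs y
  exact ⟨_, hv⟩

theorem c_mul (hF : ∀ j, Add S (fun e => F e j) (fun γ => c γ j)) [Nonempty E] (γ γ' : K) :
    c (γ * γ') = c γ + c γ' := by
  obtain ⟨e⟩ := (inferInstance : Nonempty E)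
  funext j
  have h1 := (hF j).add (γ * γ') e
  have h2 := (hF j).add γ (γ' • e)
  have h3 := (hF j).add γ' e
  rw [mul_smul] at h1
  simp only [Pi.add_apply] at *
  linear_combination h2 + h3 - h1

theorem c_inv (hF : ∀ j, Add S (fun e => F e j) (fun γ => c γ j)) [Nonempty E] (γ : K) :
    c γ⁻¹ = -c γ := by
  have h0 : c 1 = 0 := by
    have h := c_mul hF 1 1
    rw [mul_one] at h
    simpa using h
  have h := c_mul hF γ⁻¹ γ
  rw [inv_mul_cancel, h0] at h
  exact eq_neg_of_add_eq_zero_left h.symm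

/-- The critical values. -/
def cvl (S : Sheets d E K) (F : E → Fin a → ℂ) (c : K → Fin a → ℂ) : Set (Cm a) :=
  (⋃ i, (fun z => F (S.σ i z)) '' (crt S F i ∩ closedBall 0 1)) + range c

/-- **R2: the critical values are a closed set, contained in countably many thin sets.** -/
theorem crit_small (S : Sheets d E K) (hF : ∀ j, Add S (fun e => F e j) (fun γ => c γ j))
    (hdisc : ∃ δ > 0, ∀ γ, ‖c γ‖ < δ → c γ = 0) :
    ∃ B : Set (Cm a), IsSmallSet (Cm a) B ∧ (∀ t γ, t + c γ ∈ B ↔ t ∈ B) ∧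
      (∀ i, ∀ z ∈ ball (0 : Cm d) 3, F (S.σ i z) ∉ B →
        Function.Surjective (fderiv ℂ (fun z => F (S.σ i z)) z) ∧
        LinearIndependent ℂ (dF S F i z).row) := by
  rcases isEmpty_or_nonempty E with hE | hE
  · refine ⟨∅, ⟨isClosed_empty, SThin.empty⟩, fun t γ => Iff.rfl, fun i z _ _ => ?_⟩
    exact (hE.false (S.σ i z)).elim
  obtain ⟨δ, hδ, hd⟩ := hdisc
  have hcm := c_mul hF
  have hci := c_inv hF
  have hsub : ∀ γ γ', c γ - c γ' = c (γ * γ'⁻¹) := fun γ γ' => by
    rw [hcm, hci, sub_eq_add_neg]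
  have hpair : (range c).Pairwise fun x y => δ ≤ dist x y := by
    rintro _ ⟨γ, rfl⟩ _ ⟨γ', rfl⟩ hne
    by_contra h
    push Not at h
    rw [dist_eq_norm, hsub] at h
    have h1 := hd _ h
    rw [← hsub, sub_eq_zero] at h1
    exact hne h1
  have hclosed : IsClosed (range c) := isClosed_of_pairwise_le_dist hδ hpair
  have hcount : (range c).Countable := by
    refine Set.PairwiseDisjoint.countable_of_isOpen (s := fun x : Cm a => ball x (δ / 2)) ?_
      (fun x _ => isOpen_ball) (fun x _ => ⟨x, mem_ball_self (by positivity)⟩)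
    intro x hx y hy hne
    refine Set.disjoint_left.2 fun w hw hw' => ?_
    have h1 := hpair hx hy hne
    have h2 : dist x y < δ := by
      calc dist x y ≤ dist w x + dist w y := dist_triangle_left _ _ _
        _ < δ / 2 + δ / 2 := add_lt_add hw hw'
        _ = δ := by ring
    exact absurd h1 (not_le.2 h2)
  have hK : IsCompact (⋃ i, (fun z => F (S.σ i z)) '' (crt S F i ∩ closedBall 0 1)) := by
    refine isCompact_iUnion fun i => (crt_closed hF i).image_of_continuousOn fun z hz => ?_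
    exact (diffAt hF i (closedBall_subset_ball (by norm_num) hz.2)).continuousAt.continuousWithinAt
  refine ⟨cvl S F c, ⟨hclosed.add_left_of_isCompact hK, ?_⟩, ?_, ?_⟩
  · have := hcount.to_subtype
    have h1 : SThin (Cm a) (⋃ q : range c × Fin S.N,
        (fun z => F (S.σ q.2 z) + (q.1 : Fin a → ℂ)) '' (crt S F q.2 ∩ ball 0 3)) :=
      SThin.iUnion fun q => crt_thin hF q.2 q.1
    refine h1.mono ?_
    rintro _ ⟨x, hx, y, hy, rfl⟩
    obtain ⟨i, z, hz, rfl⟩ := mem_iUnion.1 hx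
    exact mem_iUnion.2 ⟨(⟨y, hy⟩, i), z, ⟨hz.1, closedBall_subset_ball (by norm_num) hz.2⟩, rfl⟩
  · intro t γ
    constructor
    · rintro ⟨x, hx, _, ⟨γ', rfl⟩, h⟩
      refine ⟨x, hx, c (γ' * γ⁻¹), ⟨_, rfl⟩, ?_⟩
      have h' : x + c γ' = t + c γ := h
      show x + c (γ' * γ⁻¹) = t
      rw [← hsub]
      have h2 : x + c γ' - c γ = t := by rw [h', add_sub_cancel_right]
      rw [← h2]
      abel
    · rintro ⟨x, hx, _, ⟨γ', rfl⟩, h⟩
      refine ⟨x, hx, c (γ' * γ), ⟨_, rfl⟩, ?_⟩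
      have h' : x + c γ' = t := h
      show x + c (γ' * γ) = t + c γ
      rw [hcm, ← h']
      abel
  · intro i z hz hB
    have h1 : Function.Surjective (fderiv ℂ (fun z => F (S.σ i z)) z) := by
      by_contra hcr
      apply hB
      obtain ⟨γ, j, w, hw, he⟩ := S.cover (S.σ i z)
      have hw3 : w ∈ ball (0 : Cm d) 3 := by
        rw [mem_ball, dist_zero_right]
        linarith
      have h2 : w ∈ crt S F j := crt_change hF hz hw3 he hcr
      refine ⟨F (S.σ j w), mem_iUnion.2 ⟨j, w, ⟨h2, ?_⟩, rfl⟩, c γ, ⟨γ, rfl⟩, ?_⟩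
      · rw [mem_closedBall, dist_zero_right]
        exact hw.le
      · show F (S.σ j w) + c γ = F (S.σ i z)
        rw [← he]
        funext k
        exact ((hF k).add γ _).symm
    exact ⟨h1, (rows_iff hF i hz).2 h1⟩

end

end Vale.Agent.P281.H118.HKT
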